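import Vale.Agent.Lib.P232.Class.FinalFull

open MeasureTheory Vale.Agent.Lib.P232

/-- **The isoperimetric problem of the cubic three-torus.**  Let `V ∈ (0, 1)`, `v = min (V, 1 - V)` and
`J = min ((36π)^{1/3} v^{2/3}, 2 √(πv), 2)`.  Some measurable `ℤ³`-periodic set `E ⊆ ℝ³` with
`|E ∩ [0,1)³| = V` has De Giorgi perimeter `J` in the torus, and every such set has perimeter at least `J`;
if its perimeter is at most `J`, then up to a null set `E` (when `V ≤ 1/2`) or its complement (when
`V ≥ 1/2`) is an embedded periodic ball, an embedded periodic solid tube about a line parallel to a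
coordinate axis, or a slab between two parallel coordinate planes. -/
theorem Vale.Agent.Results.P232.AAllMinimizers.result (V : ℝ) (hV0 : 0 < V) (hV1 : V < 1)
    (v : ℝ) (hv : v = min V (1 - V)) (J : ℝ)
    (hJ : J = min (min ((36 * Real.pi) ^ ((1 : ℝ) / 3) * v ^ ((2 : ℝ) / 3))
      (2 * Real.sqrt (Real.pi * v))) 2) :
    (∃ E : Set R3, MeasurableSet E ∧ IsZ3Periodic E ∧ (volume (E ∩ Q3)).toReal = V ∧
      Perim E = ENNReal.ofReal J) ∧
    ∀ E : Set R3, MeasurableSet E → IsZ3Periodic E → (volume (E ∩ Q3)).toReal = V →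
      ENNReal.ofReal J ≤ Perim E ∧
      (Perim E ≤ ENNReal.ofReal J → (V ≤ 1 / 2 → IsRegion E) ∧ (1 / 2 ≤ V → IsRegion Eᶜ)) := by
  subst hv
  subst hJ
  exact profile_and_minimizers hV0 hV1
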